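import Vale.Agent.P066.H347.GWHom

/-!
# [W4] Words form a basis: abstract form

`hR0_eq_card`: for a complete irredundant family of good words of class `d` with homogeneous
elements, `hR0 a θ d m` is the number of words of degree `m`.
-/

set_option autoImplicit false
set_option linter.unusedSectionVars false

open Finset MvPolynomial

namespace Vale.Agent.P066.Lab.LSW

open Vale.Agent.P066.Lab
open Vale.Agent.P066.Theta.H422 (Alt TP mem_TP mem_Alt)

noncomputable section

variable {n : ℕ}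

section Level

variable {S : Type} [Fintype S] [DecidableEq S]

theorem nb_le_card (c : S → ℕ) : nb c ≤ Fintype.card S := by
  unfold nb
  exact_mod_cast (card_image_le).trans card_univ.le

theorem CC_nonneg (a : S → S → ℕ) (c : S → ℕ) : 0 ≤ CC a c :=
  sum_nonneg fun _ _ => Nat.cast_nonneg _

/-- every homogeneous polynomial has a level -/
theorem fil_of_hom (a : S → S → ℕ) (θ : S → ℤ) {f : MvPolynomial S ℚ} {D : ℕ}
    (hf : f.IsHomogeneous D) : Fil ℚ a θ (2 * D + Fintype.card S) f := by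
  intro c _ α hα
  have h1 := nb_le_card c
  have h2 := CC_nonneg a c
  have h3 : D < α.degree := by
    have : (2 * (D : ℤ)) < 2 * (α.degree : ℤ) := by linarith
    omega
  rw [(H678.biHom_Tc c hf).coeff_eq_zero α h3]
  exact Submodule.zero_mem _

end Level

variable {a : Fin n → Fin n → ℕ} {θ : Fin n → ℤ} {L : Letters a θ} {r : ℕ}

theorem gW_mem_Alt {d : Fin n →₀ ℕ} (w : Fin r → Ltr L) (e : SW (clsW w) ≃ Pt d) :
    gW w e ∈ Alt ℚ (Sigma.fst : Pt d → Fin n) := antis_mem_Alt _ _

/-- reordering -/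
theorem gW_comp (h2 : W2a) (hs : SymD a θ) {d : Fin n →₀ ℕ} (w : Fin r → Ltr L)
    (τ : Equiv.Perm (Fin r)) (e : SW (clsW w) ≃ Pt d) (e' : SW (clsW (w ∘ τ)) ≃ Pt d)
    (he : TB (tyW (clsW w)) Sigma.fst e) (he' : TB (tyW (clsW (w ∘ τ))) Sigma.fst e') :
    ∃ c : ℚ, Fil ℚ (aP a d) (θP θ d) (lev w - 1) (gW w e - c • gW (w ∘ τ) e') := by
  obtain ⟨ε, hε⟩ := h2 n a θ hs L r w τ
  set s : SW (clsW (w ∘ τ)) ≃ SW (clsW w) :=
    Equiv.sigmaCongrLeft (β := fun j => Pt (clsW w j)) τ with hsdef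
  have hsT : TB (tyW (clsW (w ∘ τ))) (tyW (clsW w)) s := fun x => by
    rw [hsdef]
    rfl
  have h3 : Fil ℚ (aP a d) (θP θ d) (lev w - 1)
      (antis (Sigma.fst : Pt d → Fin n) (rename e
        (rename s (PW (w ∘ τ)) - ((ε : ℤ) : ℚ) • PW w))) :=
    antis_fil ((rename_fil he _ _).2 hε)
  have h4 : antis (Sigma.fst : Pt d → Fin n) (rename e (rename s (PW (w ∘ τ)))) =
      sg (e'.symm.trans (s.trans e)) • gW (w ∘ τ) e' := by
    rw [rename_rename]
    exact antis_change he' (hsT.trans he) _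
  rw [map_sub, map_smul, map_sub, map_smul, h4] at h3
  have h5 : ((ε : ℤ) : ℚ) * ((ε : ℤ) : ℚ) = 1 := by
    rcases Int.units_eq_one_or ε with h | h <;> rw [h] <;> norm_num
  refine ⟨((ε : ℤ) : ℚ) * sg (e'.symm.trans (s.trans e)), ?_⟩
  have h6 : gW w e - (((ε : ℤ) : ℚ) * sg (e'.symm.trans (s.trans e))) • gW (w ∘ τ) e' =
      (-((ε : ℤ) : ℚ)) • (sg (e'.symm.trans (s.trans e)) • gW (w ∘ τ) e' -
        ((ε : ℤ) : ℚ) • antis (Sigma.fst : Pt d → Fin n) (rename e (PW w))) := by
    rw [smul_sub, smul_smul, smul_smul, neg_mul, neg_mul, h5, neg_smul, neg_smul, one_smul]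
    unfold gW
    abel
  rw [h6]
  exact (filS ℚ (aP a d) (θP θ d) (lev w - 1)).smul_mem _ h3

/-- two words with the same letters -/
theorem gW_change (h2 : W2a) (hs : SymD a θ) {d : Fin n →₀ ℕ} {r r' : ℕ} (w : Fin r → Ltr L)
    (w' : Fin r' → Ltr L) (e : SW (clsW w) ≃ Pt d) (e' : SW (clsW w') ≃ Pt d)
    (he : TB (tyW (clsW w)) Sigma.fst e) (he' : TB (tyW (clsW w')) Sigma.fst e')
    (hw : msW w' = msW w) :
    ∃ c : ℚ, Fil ℚ (aP a d) (θP θ d) (lev w - 1) (gW w e - c • gW w' e') := by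
  have hr : r' = r := by
    have := congrArg Multiset.card hw
    unfold msW at this
    rw [Multiset.card_map, Multiset.card_map] at this
    simpa using this
  subst hr
  obtain ⟨τ, hτ⟩ := exists_perm_of_msW hw.symm
  subst hτ
  exact gW_comp h2 hs w τ e e' he he'

theorem lev_nonneg (w : Fin r → Ltr L) : 0 ≤ lev w := by
  unfold lev
  positivity

section Main

variable (h1 : W1) (h2a : W2a) (h2b : W2b) (h3 : W3) (hs : SymD a θ) {d : Fin n →₀ ℕ}
  (hd : Theta.wt θ d = 0) {ι : Type} {r : ι → ℕ} (w : ∀ i, Fin (r i) → Ltr L)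
  (e : ∀ i, SW (clsW (w i)) ≃ Pt d) (he : ∀ i, TB (tyW (clsW (w i))) Sigma.fst (e i))
  (hg : ∀ i, Good (w i)) (hinj : Function.Injective fun i => msW (w i))
  (hc : ∀ (r' : ℕ) (w' : Fin r' → Ltr L) (e' : SW (clsW w') ≃ Pt d),
    TB (tyW (clsW w')) Sigma.fst e' → Good w' → ∃ i, msW (w i) = msW w')

include h1 h2a h2b hs hd he hc in
/-- the chosen words span -/
theorem span_words (N : ℕ) : ∀ f ∈ Alt ℚ (Sigma.fst : Pt d → Fin n),
    Fil ℚ (aP a d) (θP θ d) ((N : ℤ) - 1) f →
      f ∈ Submodule.span ℚ (Set.range fun i => gW (w i) (e i)) ⊔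
        (J0 ℚ (aP a d) (θP θ d) univ).restrictScalars ℚ := by
  induction N with
  | zero =>
    intro f hf hF
    have h4 := h1 n a θ hs L d hd _ f hf hF
    have h5 : {g | ∃ (r : ℕ) (w : Fin r → Ltr L) (e : SW (clsW w) ≃ Pt d),
        TB (tyW (clsW w)) Sigma.fst e ∧ lev w ≤ ((0 : ℕ) : ℤ) - 1 ∧ g = gW w e} = ∅ := by
      rw [Set.eq_empty_iff_forall_notMem]
      rintro g ⟨r', w', e', _, h6, _⟩
      have := lev_nonneg w'
      push_cast at h6
      omega
    rw [h5, Submodule.span_empty, bot_sup_eq] at h4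
    exact Submodule.mem_sup_right h4
  | succ N ih =>
    intro f hf hF
    have h4 := h1 n a θ hs L d hd _ f hf hF
    refine (sup_le ?_ le_sup_right : _ ≤ Submodule.span ℚ (Set.range fun i => gW (w i) (e i)) ⊔
        (J0 ℚ (aP a d) (θP θ d) univ).restrictScalars ℚ) h4
    rw [Submodule.span_le]
    rintro g ⟨r', w', e', he', h6, rfl⟩
    rw [SetLike.mem_coe]
    by_cases hG : Good w'
    · obtain ⟨i, hi⟩ := hc r' w' e' he' hG
      obtain ⟨c, h7⟩ := gW_change h2a hs w' (w i) e' (e i) he' (he i) hi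
      have h8 := ih _ (Submodule.sub_mem _ (gW_mem_Alt w' e')
        (Submodule.smul_mem _ c (gW_mem_Alt (w i) (e i))))
        (Fil_mono' (by push_cast at h6 ⊢; linarith) h7)
      have h9 := Submodule.add_mem _ h8 (Submodule.smul_mem _ c
        (Submodule.mem_sup_left (Submodule.subset_span ⟨i, rfl⟩)))
      rw [sub_add_cancel] at h9
      exact h9
    · exact ih _ (gW_mem_Alt w' e')
        (Fil_mono' (by push_cast at h6 ⊢; linarith) (h2b n a θ hs L d r' w' e' he' hG))

include h3 hs he hg hinj in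
theorem indep_words : LinearIndependent ℚ fun i =>
    ((J0 ℚ (aP a d) (θP θ d) univ).restrictScalars ℚ).mkQ (gW (w i) (e i)) := by
  have h4 := h3 n a θ hs L d ι r w e he hg hinj
  have h5 := h4.map' (Submodule.Quotient.restrictScalarsEquiv ℚ
    (J0 ℚ (aP a d) (θP θ d) univ)).symm.toLinearMap (LinearEquiv.ker _)
  exact h5

include h1 h2a h2b h3 hs hd he hg hinj hc in
/-- **The count.** -/
theorem hR0_eq_card (m : ℕ) :
    hR0 a θ d m = Nat.card {i : ι // degW a (w i) = m} := by
  set J := (J0 ℚ (aP a d) (θP θ d) univ).restrictScalars ℚ with hJ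
  have hli : LinearIndependent ℚ fun i : {i : ι // degW a (w i) = m} =>
      J.mkQ (gW (w i.1) (e i.1)) :=
    (indep_words h3 hs w e he hg hinj).comp _ Subtype.val_injective
  have hspan : (AltH ℚ (Sigma.fst : Pt d → Fin n) m).map J.mkQ =
      Submodule.span ℚ (Set.range fun i : {i : ι // degW a (w i) = m} =>
        J.mkQ (gW (w i.1) (e i.1))) := by
    apply le_antisymm
    · rw [Submodule.map_le_iff_le_comap]
      rintro f ⟨hf1, hf2⟩
      have hf3 : f.IsHomogeneous m := (mem_homogeneousSubmodule _ _).1 hf2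
      have h4 := span_words h1 h2a h2b hs hd w e he hc (2 * m + Fintype.card (Pt d) + 1) f hf1
        (Fil_mono' (by push_cast; linarith) (fil_of_hom (aP a d) (θP θ d) hf3))
      obtain ⟨g, hg1, j, hj, hgj⟩ := Submodule.mem_sup.1 h4
      rw [Submodule.mem_comap]
      have h5 : homogeneousComponent m f = f := by
        rw [homogeneousComponent_of_mem hf3, if_pos rfl]
      rw [← h5, ← hgj, map_add, map_add]
      have h6 : J.mkQ (homogeneousComponent m j) = 0 := by
        rw [Submodule.mkQ_apply, Submodule.Quotient.mk_eq_zero]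
        exact H678.J0_homI univ m j hj
      rw [h6, add_zero]
      have h7 : Submodule.span ℚ (Set.range fun i => gW (w i) (e i)) ≤
          (Submodule.span ℚ (Set.range fun i : {i : ι // degW a (w i) = m} =>
            J.mkQ (gW (w i.1) (e i.1)))).comap (J.mkQ ∘ₗ homogeneousComponent m) := by
        rw [Submodule.span_le]
        rintro _ ⟨i, rfl⟩
        rw [SetLike.mem_coe, Submodule.mem_comap, LinearMap.comp_apply,
          homogeneousComponent_of_mem (gW_isHomogeneous (w i) (e i))]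
        split_ifs with h8
        · exact Submodule.subset_span ⟨⟨i, h8.symm⟩, rfl⟩
        · rw [map_zero]; exact Submodule.zero_mem _
      exact h7 hg1
    · rw [Submodule.span_le]
      rintro _ ⟨i, rfl⟩
      refine ⟨gW (w i.1) (e i.1), ⟨gW_mem_Alt _ _, ?_⟩, rfl⟩
      rw [SetLike.mem_coe, mem_homogeneousSubmodule]
      have := gW_isHomogeneous (w i.1) (e i.1)
      rwa [i.2] at this
  unfold hR0 hQ
  rw [hspan]
  exact Module.finrank_eq_nat_card_basis (Module.Basis.span hli)

end Main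

end

end Vale.Agent.P066.Lab.LSW
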